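import Mathlib

/-!
# P078: shared definitions for the so-paving proof

`Std H` is a tracial von Neumann algebra in standard form with a MASA: `M` acts on `H` with a cyclic unit vector `Ω`
whose vector state is a trace, and `M` is closed under bounded strong limits.
-/

noncomputable section

namespace Vale.Agent.P078

open scoped InnerProductSpace

universe u

/-- Bounded operators on `H`. -/
abbrev Op (H : Type u) [NormedAddCommGroup H] [InnerProductSpace ℂ H] : Type u := H →L[ℂ] H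

variable {H : Type u} [NormedAddCommGroup H] [InnerProductSpace ℂ H] [CompleteSpace H]

/-- A partition of the projection `e` into `n` orthogonal projections of the set `A`. -/
def IsPart (A : Set (Op H)) (e : Op H) {n : ℕ} (p : Fin n → Op H) : Prop :=
  (∀ i, p i ∈ A ∧ IsStarProjection (p i)) ∧ (∀ i j, i ≠ j → p i * p j = 0) ∧ ∑ i, p i = e

/-- The pinching of `x` by `p`. -/
def pinch {n : ℕ} (p : Fin n → Op H) (x : Op H) : Op H := ∑ i, p i * x * p i

/-- `T` is a bounded strong limit of elements of `M`. -/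
def BoundedStrongLimit (M : Set (Op H)) (T : Op H) : Prop :=
  ∃ C : ℝ, ∀ F : Finset H, ∀ ε : ℝ, 0 < ε → ∃ x ∈ M, ‖x‖ ≤ C ∧ ∀ v ∈ F, ‖x v - T v‖ < ε

/-- A tracial algebra in standard form together with a MASA. -/
structure Std (H : Type u) [NormedAddCommGroup H] [InnerProductSpace ℂ H] [CompleteSpace H] where
  /-- the algebra -/
  M : StarSubalgebra ℂ (Op H)
  /-- the MASA -/
  A : StarSubalgebra ℂ (Op H)
  /-- the trace vector -/
  Ω : H
  norm_Ω : ‖Ω‖ = 1
  A_le : A ≤ M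
  A_comm : ∀ a ∈ A, ∀ b ∈ A, a * b = b * a
  A_max : ∀ x ∈ M, (∀ a ∈ A, a * x = x * a) → x ∈ A
  tracial : ∀ x ∈ M, ∀ y ∈ M, ⟪Ω, (x * y) Ω⟫_ℂ = ⟪Ω, (y * x) Ω⟫_ℂ
  cyclic : Dense {v : H | ∃ x ∈ M, x Ω = v}
  strong_closed : ∀ T : Op H, BoundedStrongLimit (M : Set (Op H)) T → T ∈ M

namespace Std

variable (S : Std H)

/-- The `L²` norm of an operator for the trace. -/
def n2 (x : Op H) : ℝ := ‖x S.Ω‖

/-- The trace. -/
def tau (x : Op H) : ℂ := ⟪S.Ω, x S.Ω⟫_ℂ

/-- The space `L²(A)` as a closed subspace of `H`. -/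
def L2A : Submodule ℂ H :=
  (Submodule.span ℂ {v : H | ∃ a ∈ S.A, a S.Ω = v}).topologicalClosure

/-- Finite partitions of one in the MASA. -/
structure Parti where
  /-- number of pieces -/
  n : ℕ
  /-- the pieces -/
  p : Fin n → Op H
  isPart : IsPart (S.A : Set (Op H)) 1 p

/-- `Q` refines `P`: every piece of `P` is a sum of pieces of `Q`. -/
def Parti.Refines {S : Std H} (Q P : S.Parti) : Prop :=
  ∃ f : Fin Q.n → Fin P.n, ∀ j, P.p j = ∑ i, if f i = j then Q.p i else 0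

/-- `f P` tends to `l` along the refinement of partitions. -/
def PTendsto {α : Type*} [PseudoMetricSpace α] (f : S.Parti → α) (l : α) : Prop :=
  ∀ ε : ℝ, 0 < ε → ∃ P₀ : S.Parti, ∀ P : S.Parti, P.Refines P₀ → dist (f P) l < ε

/-- The target for one algebra: every self-adjoint contraction is paved with `r` pieces up to `ε`. -/
def Paves (ε : ℝ) (r : ℕ) : Prop :=
  ∀ x ∈ S.M, IsSelfAdjoint x → ‖x‖ ≤ 1 → ∀ δ : ℝ, 0 < δ →
    ∃ (p : Fin r → Op H) (a q : Op H), IsPart (S.A : Set (Op H)) 1 p ∧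
      a ∈ S.A ∧ IsSelfAdjoint a ∧ ‖a‖ ≤ 1 ∧ q ∈ S.M ∧ IsStarProjection q ∧
      S.n2 (1 - q) < δ ∧ ‖q * (pinch p x - a) * q‖ ≤ ε

end Std

/-- The tracial core of P078: a uniform polynomial bound on the number of pieces. -/
def TracialCore.{v} : Prop :=
  ∃ (C : ℝ) (k : ℕ), ∀ (H : Type v) [NormedAddCommGroup H] [InnerProductSpace ℂ H] [CompleteSpace H],
    ∀ (S : Std H) (ε : ℝ), 0 < ε → ε ≤ 1 → ∃ r : ℕ, (r : ℝ) ≤ C / ε ^ k ∧ S.Paves ε r

end Vale.Agent.P078
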