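import Vale.Agent.P078.Trace.Words

/-!
# P078: the tracial state on the algebra of multipliers and maps `a ↦ E(X* a Y)`

`S.alg` is the closed algebra generated on `L²(A)`, `S.ktr` the limit of the diagonal sums along refinement, and
`S.kexp` its density on the MASA.
-/

noncomputable section

namespace Vale.Agent.P078

open scoped InnerProductSpace Topology ComplexOrder
open Filter

universe u

variable {H : Type u} [NormedAddCommGroup H] [InnerProductSpace ℂ H] [CompleteSpace H]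

namespace Std

variable (S : Std H)

instance kop_semitop : IsSemitopologicalSemiring (S.L2A →L[ℂ] S.L2A) :=
  letI : NormedRing (S.L2A →L[ℂ] S.L2A) := inferInstance
  inferInstance

instance kop_continuousStar : ContinuousStar (S.L2A →L[ℂ] S.L2A) :=
  letI : CStarAlgebra (S.L2A →L[ℂ] S.L2A) := inferInstance
  inferInstance

instance kop_tower : IsScalarTower ℂ (S.L2A →L[ℂ] S.L2A) (S.L2A →L[ℂ] S.L2A) :=
  ⟨fun c f g => by ext; rfl⟩

instance kop_smulComm : SMulCommClass ℂ (S.L2A →L[ℂ] S.L2A) (S.L2A →L[ℂ] S.L2A) :=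
  ⟨fun c f g => ContinuousLinearMap.ext fun v => (map_smul f c (g v)).symm⟩

/-- The generators of the algebra on `L²(A)`. -/
def kgens : Set (S.L2A →L[ℂ] S.L2A) :=
  {F | (∃ a ∈ S.A, S.mul a = F) ∨ ∃ X ∈ S.M, ∃ Y ∈ S.M, S.T X Y = F}

/-- The closed algebra generated by the multipliers and the maps `a ↦ E(X* a Y)`. -/
def alg : StarSubalgebra ℂ (S.L2A →L[ℂ] S.L2A) := (StarAlgebra.adjoin ℂ S.kgens).topologicalClosure

open Classical in
/-- The tracial state on `alg`. -/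
def ktr (F : S.L2A →L[ℂ] S.L2A) : ℂ :=
  if h : ∃ l, S.PTendsto (fun P => S.kdiag P F) l then h.choose else 0

open Classical in
/-- The density of `ktr` on the MASA. -/
def kexp (F : S.L2A →L[ℂ] S.L2A) : Op H :=
  if h : ∃ d ∈ S.A, ∀ b ∈ S.A, S.ktr (S.mul b * F) = S.tau (b * d) then h.choose else 0

/-- The span of the words. -/
def wspan : Submodule ℂ (S.L2A →L[ℂ] S.L2A) :=
  Submodule.span ℂ {F | ∃ w, S.WordMem w ∧ S.wordOp w = F}

variable {S}

theorem isClosed_alg : IsClosed (S.alg : Set (S.L2A →L[ℂ] S.L2A)) :=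
  StarSubalgebra.isClosed_topologicalClosure _

theorem mul_mem_alg {a : Op H} (ha : a ∈ S.A) : S.mul a ∈ S.alg :=
  StarSubalgebra.le_topologicalClosure _ (StarAlgebra.subset_adjoin ℂ _ (Or.inl ⟨a, ha, rfl⟩))

theorem T_mem_alg {X Y : Op H} (hX : X ∈ S.M) (hY : Y ∈ S.M) : S.T X Y ∈ S.alg :=
  StarSubalgebra.le_topologicalClosure _ (StarAlgebra.subset_adjoin ℂ _ (Or.inr ⟨X, hX, Y, hY, rfl⟩))

lemma av_smul (c : ℂ) {a : Op H} (ha : a ∈ S.A) : S.av (c • a) = c • S.av a :=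
  Subtype.ext (by rw [S.coe_av (S.A.smul_mem ha c), Submodule.coe_smul, S.coe_av ha]; rfl)

lemma mul_eq_T {a : Op H} (ha : a ∈ S.A) : S.mul a = S.T 1 a :=
  S.op_ext fun b hb => by
    rw [S.mul_av ha hb, S.T_av (one_mem _) (S.A_le ha) hb, star_one, one_mul,
      S.exp_of_mem (mul_mem hb ha), S.A_comm b hb a ha]

lemma T_mem_wspan {X Y : Op H} (hX : X ∈ S.M) (hY : Y ∈ S.M) : S.T X Y ∈ S.wspan := by
  have hw : ∀ {Z : Op H}, Z ∈ S.M → S.T Z Z ∈ S.wspan := fun {Z} hZ =>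
    Submodule.subset_span ⟨[Z], by simpa [WordMem] using hZ, by simp [wordOp]⟩
  set c : Fin 4 → ℂ := ![1, Complex.I, -1, -Complex.I] with hc
  have hm : ∀ k, X + c k • Y ∈ S.M := fun k => add_mem hX (S.M.smul_mem hY _)
  have key : S.T X Y = (1 / 4 : ℂ) • ∑ k, (starRingEnd ℂ (c k)) • S.T (X + c k • Y) (X + c k • Y) := by
    refine S.op_ext fun a ha => ?_
    have haM := S.A_le ha
    have hsum : (1 / 4 : ℂ) • ∑ k, (starRingEnd ℂ (c k)) • (star (X + c k • Y) * a * (X + c k • Y)) =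
        star X * a * Y := by
      simp [hc, Fin.sum_univ_four, star_smul, add_mul, _root_.mul_add, smul_smul, Complex.conj_I]
      module
    simp only [smul_apply, sum_apply, S.T_av hX hY ha, S.T_av (hm _) (hm _) ha]
    rw [← hsum]
    have hk : ∀ k, star (X + c k • Y) * a * (X + c k • Y) ∈ S.M := fun k =>
      mul_mem (mul_mem (star_mem (hm k)) haM) (hm k)
    simp only [Fin.sum_univ_four]
    have hk' : ∀ k, starRingEnd ℂ (c k) • (star (X + c k • Y) * a * (X + c k • Y)) ∈ S.M := fun k =>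
      S.M.smul_mem (hk k) _
    rw [S.exp_smul _ (add_mem (add_mem (add_mem (hk' 0) (hk' 1)) (hk' 2)) (hk' 3)),
      S.exp_add (add_mem (add_mem (hk' 0) (hk' 1)) (hk' 2)) (hk' 3), S.exp_add (add_mem (hk' 0) (hk' 1)) (hk' 2),
      S.exp_add (hk' 0) (hk' 1), S.exp_smul _ (hk 0), S.exp_smul _ (hk 1), S.exp_smul _ (hk 2), S.exp_smul _ (hk 3)]
    have e : ∀ k, starRingEnd ℂ (c k) • S.exp (star (X + c k • Y) * a * (X + c k • Y)) ∈ S.A := fun k =>
      S.A.smul_mem (S.exp_mem _) _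
    rw [av_smul _ (add_mem (add_mem (add_mem (e 0) (e 1)) (e 2)) (e 3)),
      S.av_add (add_mem (add_mem (e 0) (e 1)) (e 2)) (e 3), S.av_add (add_mem (e 0) (e 1)) (e 2),
      S.av_add (e 0) (e 1), av_smul _ (S.exp_mem _), av_smul _ (S.exp_mem _), av_smul _ (S.exp_mem _),
      av_smul _ (S.exp_mem _)]
  rw [key]
  exact Submodule.smul_mem _ _ (sum_mem fun k _ => Submodule.smul_mem _ _ (hw (hm k)))

lemma one_mem_wspan : (1 : S.L2A →L[ℂ] S.L2A) ∈ S.wspan :=
  Submodule.subset_span ⟨[], by simp [WordMem], rfl⟩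

lemma mul_mem_wspan {F G : S.L2A →L[ℂ] S.L2A} (hF : F ∈ S.wspan) (hG : G ∈ S.wspan) : F * G ∈ S.wspan := by
  induction hF, hG using Submodule.span_induction₂ with
  | mem_mem x y hx hy =>
    obtain ⟨u, hu, rfl⟩ := hx
    obtain ⟨v, hv, rfl⟩ := hy
    exact Submodule.subset_span ⟨u ++ v, S.wordMem_append hu hv, S.wordOp_append u v⟩
  | zero_left => rw [zero_mul]; exact zero_mem _
  | zero_right => rw [MulZeroClass.mul_zero]; exact zero_mem _
  | add_left x y z _ _ _ h h' => rw [add_mul]; exact add_mem h h'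
  | add_right x y z _ _ _ h h' => rw [_root_.mul_add]; exact add_mem h h'
  | smul_left r x y _ _ h => rw [smul_mul_assoc]; exact Submodule.smul_mem _ _ h
  | smul_right r x y _ _ h => rw [mul_smul_comm]; exact Submodule.smul_mem _ _ h

lemma star_mem_wspan {F : S.L2A →L[ℂ] S.L2A} (hF : F ∈ S.wspan) : star F ∈ S.wspan := by
  induction hF using Submodule.span_induction with
  | mem x hx =>
    obtain ⟨u, hu, rfl⟩ := hx
    exact Submodule.subset_span ⟨_, S.wordMem_dual hu, (S.star_wordOp hu).symm⟩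
  | zero => rw [show star (0 : S.L2A →L[ℂ] S.L2A) = 0 from star_zero (S.L2A →L[ℂ] S.L2A)]; exact zero_mem _
  | add x y _ _ h h' => rw [show star (x + y) = star x + star y from star_add x y]; exact add_mem h h'
  | smul r x _ h => rw [show star (r • x) = star r • star x from star_smul r x]; exact Submodule.smul_mem _ _ h

lemma adjoin_le_wspan {F : S.L2A →L[ℂ] S.L2A} (hF : F ∈ StarAlgebra.adjoin ℂ S.kgens) : F ∈ S.wspan := by
  induction hF using StarAlgebra.adjoin_induction with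
  | mem x hx =>
    rcases hx with ⟨a, ha, rfl⟩ | ⟨X, hX, Y, hY, rfl⟩
    · rw [mul_eq_T ha]; exact T_mem_wspan (one_mem _) (S.A_le ha)
    · exact T_mem_wspan hX hY
  | algebraMap r => rw [Algebra.algebraMap_eq_smul_one]; exact Submodule.smul_mem _ _ one_mem_wspan
  | add x y _ _ h h' => exact add_mem h h'
  | mul x y _ _ h h' => exact mul_mem_wspan h h'
  | star x _ h => exact star_mem_wspan h

lemma mem_closure_wspan {F : S.L2A →L[ℂ] S.L2A} (hF : F ∈ S.alg) :
    F ∈ closure (S.wspan : Set (S.L2A →L[ℂ] S.L2A)) := by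
  have : F ∈ closure (StarAlgebra.adjoin ℂ S.kgens : Set (S.L2A →L[ℂ] S.L2A)) := by
    rw [← StarSubalgebra.topologicalClosure_coe]; exact hF
  exact closure_mono (fun G hG => adjoin_le_wspan hG) this

/-! ### The diagonal sums -/

lemma sum_norm_av_sq (P : S.Parti) : ∑ i, ‖S.av (P.p i)‖ ^ 2 = 1 := by
  simp only [S.norm_av (P.mem_A _), S.n2_sq, P.star_p, P.mul_self]
  rw [← Complex.re_sum, ← S.tau_sum, P.sum_p]
  have h := S.n2_sq (1 : Op H)
  rw [star_one, one_mul] at h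
  rw [← h]
  simp [n2, S.norm_Ω]

lemma kdiag_add (P : S.Parti) (F G : S.L2A →L[ℂ] S.L2A) : S.kdiag P (F + G) = S.kdiag P F + S.kdiag P G := by
  simp [kdiag, inner_add_right, Finset.sum_add_distrib]

lemma kdiag_smul (P : S.Parti) (c : ℂ) (F : S.L2A →L[ℂ] S.L2A) : S.kdiag P (c • F) = c * S.kdiag P F := by
  simp [kdiag, inner_smul_right, Finset.mul_sum]

lemma kdiag_sub (P : S.Parti) (F G : S.L2A →L[ℂ] S.L2A) : S.kdiag P (F - G) = S.kdiag P F - S.kdiag P G := by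
  simp [kdiag, inner_sub_right, Finset.sum_sub_distrib]

lemma norm_kdiag_le (P : S.Parti) (F : S.L2A →L[ℂ] S.L2A) : ‖S.kdiag P F‖ ≤ ‖F‖ := by
  refine (norm_sum_le _ _).trans ((Finset.sum_le_sum fun i _ => ?_).trans
    (le_of_eq (by rw [← Finset.mul_sum, sum_norm_av_sq P, _root_.mul_one] : ∑ i, ‖F‖ * ‖S.av (P.p i)‖ ^ 2 = ‖F‖)))
  refine (norm_inner_le_norm _ _).trans ?_
  exact (mul_le_mul_of_nonneg_left (F.le_opNorm _) (norm_nonneg _)).trans (le_of_eq (by ring))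

lemma exists_kdiag_limit {F : S.L2A →L[ℂ] S.L2A} (hF : F ∈ S.alg) :
    ∃ l, Tendsto (fun P => S.kdiag P F) S.fine (𝓝 l) := by
  have hspan : ∀ G ∈ S.wspan, ∃ l, Tendsto (fun P => S.kdiag P G) S.fine (𝓝 l) := by
    intro G hG
    induction hG using Submodule.span_induction with
    | mem x hx => obtain ⟨w, hw, rfl⟩ := hx; exact S.kdiag_word_tendsto hw
    | zero => exact ⟨0, by simpa [kdiag] using tendsto_const_nhds⟩
    | add x y _ _ h h' =>
      obtain ⟨a, ha⟩ := h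
      obtain ⟨b, hb⟩ := h'
      exact ⟨a + b, by simpa only [kdiag_add] using ha.add hb⟩
    | smul r x _ h =>
      obtain ⟨a, ha⟩ := h
      exact ⟨r * a, by simpa only [kdiag_smul] using ha.const_mul r⟩
  refine cauchy_map_iff_exists_tendsto.1 (Metric.cauchy_iff.2 ⟨inferInstance, fun ε hε => ?_⟩)
  obtain ⟨G, hG, hd⟩ := (Metric.mem_closure_iff (α := S.L2A →L[ℂ] S.L2A)).1 (mem_closure_wspan hF) (ε / 4) (by positivity)
  obtain ⟨l, hl⟩ := hspan G hG
  refine ⟨_, image_mem_map (Metric.tendsto_nhds.1 hl (ε / 4) (by positivity)), ?_⟩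
  rintro _ ⟨P, hP, rfl⟩ _ ⟨Q, hQ, rfl⟩
  have hP' : dist (S.kdiag P G) l < ε / 4 := hP
  have hQ' : dist (S.kdiag Q G) l < ε / 4 := hQ
  have h1 : ∀ R, dist (S.kdiag R F) (S.kdiag R G) ≤ ε / 4 := fun R => by
    rw [dist_eq_norm, ← kdiag_sub]
    exact (norm_kdiag_le R _).trans ((dist_eq_norm F G).symm.trans_le hd.le)
  calc dist (S.kdiag P F) (S.kdiag Q F)
      ≤ dist (S.kdiag P F) (S.kdiag P G) + dist (S.kdiag P G) (S.kdiag Q G) + dist (S.kdiag Q G) (S.kdiag Q F) :=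
        dist_triangle4 _ _ _ _
    _ < ε := by
      have h2 := dist_triangle_right (S.kdiag P G) (S.kdiag Q G) l
      have h3 := dist_comm (S.kdiag Q G) (S.kdiag Q F)
      linarith [h1 P, h1 Q]

/-- The diagonal sums converge to `ktr`. -/
theorem ktr_tendsto {F : S.L2A →L[ℂ] S.L2A} (hF : F ∈ S.alg) : S.PTendsto (fun P => S.kdiag P F) (S.ktr F) := by
  obtain ⟨l, hl⟩ := exists_kdiag_limit hF
  have h : ∃ l, S.PTendsto (fun P => S.kdiag P F) l := ⟨l, S.ptendsto_iff.2 hl⟩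
  rw [ktr, dif_pos h]
  exact h.choose_spec

lemma ktr_tendsto' {F : S.L2A →L[ℂ] S.L2A} (hF : F ∈ S.alg) :
    Tendsto (fun P => S.kdiag P F) S.fine (𝓝 (S.ktr F)) := S.ptendsto_iff.1 (ktr_tendsto hF)

lemma ktr_eq {F : S.L2A →L[ℂ] S.L2A} {l : ℂ} (hl : Tendsto (fun P => S.kdiag P F) S.fine (𝓝 l)) : S.ktr F = l := by
  have h : ∃ l, S.PTendsto (fun P => S.kdiag P F) l := ⟨l, S.ptendsto_iff.2 hl⟩
  rw [ktr, dif_pos h]
  exact tendsto_nhds_unique (S.ptendsto_iff.1 h.choose_spec) hl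

theorem ktr_add {F G : S.L2A →L[ℂ] S.L2A} (hF : F ∈ S.alg) (hG : G ∈ S.alg) : S.ktr (F + G) = S.ktr F + S.ktr G :=
  ktr_eq (by simpa only [kdiag_add] using (ktr_tendsto' hF).add (ktr_tendsto' hG))

theorem ktr_sub {F G : S.L2A →L[ℂ] S.L2A} (hF : F ∈ S.alg) (hG : G ∈ S.alg) : S.ktr (F - G) = S.ktr F - S.ktr G :=
  ktr_eq (by simpa only [kdiag_sub] using (ktr_tendsto' hF).sub (ktr_tendsto' hG))

theorem ktr_smul (c : ℂ) {F : S.L2A →L[ℂ] S.L2A} (hF : F ∈ S.alg) : S.ktr (c • F) = c * S.ktr F :=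
  ktr_eq (by simpa only [kdiag_smul] using (ktr_tendsto' hF).const_mul c)

theorem ktr_one : S.ktr 1 = 1 := by
  refine ktr_eq (tendsto_const_nhds.congr fun P => ?_)
  simp only [kdiag, one_apply, inner_self_eq_norm_sq_to_K, ← Complex.ofReal_pow]
  rw [← Complex.ofReal_one, ← sum_norm_av_sq P, Complex.ofReal_sum]
  simp

theorem norm_ktr_le {F : S.L2A →L[ℂ] S.L2A} (hF : F ∈ S.alg) : ‖S.ktr F‖ ≤ ‖F‖ :=
  le_of_tendsto' (ktr_tendsto' hF).norm fun P => norm_kdiag_le P F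

theorem ktr_nonneg {F : S.L2A →L[ℂ] S.L2A} (hF : F ∈ S.alg) (h : 0 ≤ F) : 0 ≤ S.ktr F :=
  ge_of_tendsto' (ktr_tendsto' hF) fun _ => Finset.sum_nonneg fun _ _ =>
    ((ContinuousLinearMap.nonneg_iff_isPositive F).1 h).inner_nonneg_right _

lemma kdiag_star (P : S.Parti) (F : S.L2A →L[ℂ] S.L2A) : S.kdiag P (star F) = starRingEnd ℂ (S.kdiag P F) := by
  simp only [kdiag, map_sum, inner_conj_symm]
  exact Finset.sum_congr rfl fun i _ => ContinuousLinearMap.adjoint_inner_right F _ _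

theorem ktr_star {F : S.L2A →L[ℂ] S.L2A} (hF : F ∈ S.alg) : S.ktr (star F) = starRingEnd ℂ (S.ktr F) :=
  ktr_eq (by simpa only [kdiag_star, Function.comp_def] using
    (Complex.continuous_conj.tendsto _).comp (ktr_tendsto' hF))

lemma wspan_le_alg {F : S.L2A →L[ℂ] S.L2A} (hF : F ∈ S.wspan) : F ∈ S.alg := by
  induction hF using Submodule.span_induction with
  | mem x hx =>
    obtain ⟨w, hw, rfl⟩ := hx
    induction w with
    | nil => exact one_mem _
    | cons X w ih => exact mul_mem (T_mem_alg (hw X List.mem_cons_self) (hw X List.mem_cons_self)) (ih fun Y hY => hw Y (List.mem_cons_of_mem _ hY))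
  | zero => exact zero_mem _
  | add x y _ _ h h' => exact add_mem h h'
  | smul r x _ h => exact S.alg.smul_mem h r

/-- `ktr` is a trace. -/
theorem ktr_mul_comm {F G : S.L2A →L[ℂ] S.L2A} (hF : F ∈ S.alg) (hG : G ∈ S.alg) : S.ktr (F * G) = S.ktr (G * F) := by
  have hspan : ∀ f ∈ S.wspan, ∀ g ∈ S.wspan, S.ktr (f * g) = S.ktr (g * f) := by
    intro f hf g hg
    induction hf, hg using Submodule.span_induction₂ with
    | mem_mem x y hx hy =>
      obtain ⟨u, hu, rfl⟩ := hx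
      obtain ⟨v, hv, rfl⟩ := hy
      have h1 : S.wordOp u ∈ S.alg := wspan_le_alg (Submodule.subset_span ⟨u, hu, rfl⟩)
      have h2 : S.wordOp v ∈ S.alg := wspan_le_alg (Submodule.subset_span ⟨v, hv, rfl⟩)
      exact S.word_tracial hu hv (ktr_tendsto' (mul_mem h1 h2)) (ktr_tendsto' (mul_mem h2 h1))
    | zero_left => simp
    | zero_right => simp
    | add_left x y z hx hy hz h h' =>
      have hx := wspan_le_alg hx; have hy := wspan_le_alg hy; have hz := wspan_le_alg hz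
      rw [add_mul, _root_.mul_add, ktr_add (mul_mem hx hz) (mul_mem hy hz), ktr_add (mul_mem hz hx) (mul_mem hz hy), h, h']
    | add_right x y z hx hy hz h h' =>
      have hx := wspan_le_alg hx; have hy := wspan_le_alg hy; have hz := wspan_le_alg hz
      rw [add_mul, _root_.mul_add, ktr_add (mul_mem hx hy) (mul_mem hx hz), ktr_add (mul_mem hy hx) (mul_mem hz hx), h, h']
    | smul_left r x y hx hy h =>
      have hx := wspan_le_alg hx; have hy := wspan_le_alg hy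
      rw [smul_mul_assoc, mul_smul_comm, ktr_smul r (mul_mem hx hy), ktr_smul r (mul_mem hy hx), h]
    | smul_right r x y hx hy h =>
      have hx := wspan_le_alg hx; have hy := wspan_le_alg hy
      rw [smul_mul_assoc, mul_smul_comm, ktr_smul r (mul_mem hx hy), ktr_smul r (mul_mem hy hx), h]
  refine eq_of_forall_dist_le fun ε hε => ?_
  set η := min 1 (ε / (4 * (‖F‖ + ‖G‖ + 2))) with hη
  have hη0 : 0 < η := lt_min one_pos (by positivity)
  obtain ⟨f, hf, hfd⟩ := (Metric.mem_closure_iff (α := S.L2A →L[ℂ] S.L2A)).1 (mem_closure_wspan hF) η hη0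
  obtain ⟨g, hg, hgd⟩ := (Metric.mem_closure_iff (α := S.L2A →L[ℂ] S.L2A)).1 (mem_closure_wspan hG) η hη0
  have hf' := wspan_le_alg hf
  have hg' := wspan_le_alg hg
  replace hfd : ‖F - f‖ < η := (dist_eq_norm F f).symm.trans_lt hfd
  replace hgd : ‖G - g‖ < η := (dist_eq_norm G g).symm.trans_lt hgd
  have hgn : ‖g‖ ≤ ‖G‖ + 1 := by
    have := norm_le_norm_add_norm_sub' g G
    rw [norm_sub_rev] at this
    linarith [min_le_left 1 (ε / (4 * (‖F‖ + ‖G‖ + 2))), hgd.le]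
  have e1 : ‖F * G - f * g‖ ≤ η * (‖F‖ + ‖G‖ + 1) := by
    rw [show F * G - f * g = F * (G - g) + (F - f) * g by simp only [_root_.mul_sub, sub_mul]; abel]
    refine (ContinuousLinearMap.opNorm_add_le _ _).trans ?_
    have m1 : ‖F * (G - g)‖ ≤ ‖F‖ * ‖G - g‖ := ContinuousLinearMap.opNorm_comp_le F (G - g)
    have m2 : ‖(F - f) * g‖ ≤ ‖F - f‖ * ‖g‖ := ContinuousLinearMap.opNorm_comp_le (F - f) g
    nlinarith [norm_nonneg F, norm_nonneg g, norm_nonneg (F - f)]
  have e2 : ‖G * F - g * f‖ ≤ η * (‖F‖ + ‖G‖ + 1) := by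
    rw [show G * F - g * f = (G - g) * F + g * (F - f) by simp only [_root_.mul_sub, sub_mul]; abel]
    refine (ContinuousLinearMap.opNorm_add_le _ _).trans ?_
    have m1 : ‖(G - g) * F‖ ≤ ‖G - g‖ * ‖F‖ := ContinuousLinearMap.opNorm_comp_le (G - g) F
    have m2 : ‖g * (F - f)‖ ≤ ‖g‖ * ‖F - f‖ := ContinuousLinearMap.opNorm_comp_le g (F - f)
    nlinarith [norm_nonneg F, norm_nonneg g, norm_nonneg (F - f)]
  have d1 := norm_ktr_le (sub_mem (mul_mem hF hG) (mul_mem hf' hg'))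
  have d2 := norm_ktr_le (sub_mem (mul_mem hG hF) (mul_mem hg' hf'))
  rw [ktr_sub (mul_mem hF hG) (mul_mem hf' hg')] at d1
  rw [ktr_sub (mul_mem hG hF) (mul_mem hg' hf'), ← hspan f hf g hg] at d2
  rw [dist_eq_norm]
  calc ‖S.ktr (F * G) - S.ktr (G * F)‖
      = ‖(S.ktr (F * G) - S.ktr (f * g)) - (S.ktr (G * F) - S.ktr (f * g))‖ := by ring_nf
    _ ≤ η * (‖F‖ + ‖G‖ + 1) + η * (‖F‖ + ‖G‖ + 1) :=
        (norm_sub_le _ _).trans (add_le_add (d1.trans e1) (d2.trans e2))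
    _ ≤ ε := by
      have h4 : η * (4 * (‖F‖ + ‖G‖ + 2)) ≤ ε := by
        rw [← le_div_iff₀ (by positivity)]; exact min_le_right _ _
      nlinarith [norm_nonneg F, norm_nonneg G]

/-- The diagonal of `mul b * T X Y`. -/
theorem ktr_mul_T {b X Y : Op H} (hb : b ∈ S.A) (hX : X ∈ S.M) (hY : Y ∈ S.M) :
    S.ktr (S.mul b * S.T X Y) = S.tau (b * star (S.exp X) * S.exp Y) := by
  have hbM := S.A_le hb
  have hk : ∀ P : S.Parti, S.kdiag P (S.mul b * S.T X Y) = S.tau (b * pinch P.p (star X) * Y) := fun P => by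
    simp only [kdiag, pinch, Finset.mul_sum, Finset.sum_mul, S.tau_sum]
    refine Finset.sum_congr rfl fun i _ => ?_
    have hm : star X * P.p i * Y ∈ S.M := mul_mem (mul_mem (star_mem hX) (P.mem_M i)) hY
    rw [show (S.mul b * S.T X Y) (S.av (P.p i)) = S.mul b (S.T X Y (S.av (P.p i))) from rfl,
      S.T_av hX hY (P.mem_A i), S.mul_av hb (S.exp_mem _), S.inner_av (P.mem_A i) (mul_mem hb (S.exp_mem _)),
      P.star_p, ← mul_assoc, S.tau_mul_exp (mul_mem (P.mem_A i) hb) hm, S.A_comm _ (P.mem_A i) _ hb]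
    simp only [mul_assoc]
  refine ktr_eq ?_
  simp only [hk]
  rw [tendsto_iff_norm_sub_tendsto_zero]
  have hlim := (S.ptendsto_iff.1 (S.pinch_tendsto (star_mem hX))).const_mul (S.n2 (star (Y * b)))
  rw [MulZeroClass.mul_zero] at hlim
  refine squeeze_zero (fun _ => norm_nonneg _) (fun P => ?_) hlim
  have hE : S.tau (b * star (S.exp X) * S.exp Y) = S.tau (b * S.exp (star X) * Y) := by
    rw [S.exp_star hX, ← S.tau_mul_exp (mul_mem hb (star_mem (S.exp_mem X))) hY]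
  have hd : pinch P.p (star X) - S.exp (star X) ∈ S.M :=
    sub_mem (S.pinch_mem (star_mem hX)) (S.A_le (S.exp_mem _))
  rw [hE, ← S.tau_sub, ← sub_mul, ← _root_.mul_sub, S.tau_comm (mul_mem hbM hd) hY, ← mul_assoc,
    show Y * b = star (star (Y * b)) from (star_star _).symm, ← S.inner_orbit, star_star]
  exact norm_inner_le_norm _ _

/-! ### The density on the MASA -/

lemma av_mul {a b : Op H} (ha : a ∈ S.A) (hb : b ∈ S.A) : S.av (a * b) = S.mul b (S.av a) := by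
  rw [S.mul_av hb ha, S.A_comm b hb a ha]

lemma sum_norm_mul_sq (P : S.Parti) (x : S.L2A) : ∑ i, ‖S.mul (P.p i) x‖ ^ 2 = ‖x‖ ^ 2 := by
  have h : ∀ i, ‖S.mul (P.p i) x‖ ^ 2 = (⟪x, S.mul (P.p i) x⟫_ℂ).re := fun i => by
    have e : ⟪S.mul (P.p i) x, S.mul (P.p i) x⟫_ℂ = ⟪x, S.mul (P.p i) x⟫_ℂ := by
      rw [← ContinuousLinearMap.adjoint_inner_right, ← ContinuousLinearMap.star_eq_adjoint, ← S.mul_star, P.star_p]
      show ⟪x, (S.mul (P.p i) * S.mul (P.p i)) x⟫_ℂ = _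
      rw [← S.mul_mul (P.mem_A i) (P.mem_A i), P.mul_self]
    rw [← e]; exact (inner_self_eq_norm_sq (𝕜 := ℂ) _).symm
  simp only [h]
  rw [← Complex.re_sum, ← inner_sum, ← sum_apply, ← S.mul_sum, P.sum_p, S.mul_one]
  exact inner_self_eq_norm_sq (𝕜 := ℂ) x

/-- The block diagonal part of an operator. -/
def blockDiag (P : S.Parti) (F : S.L2A →L[ℂ] S.L2A) : S.L2A →L[ℂ] S.L2A :=
  ∑ i, S.mul (P.p i) * F * S.mul (P.p i)

lemma norm_inner_blockDiag_le (P : S.Parti) (F : S.L2A →L[ℂ] S.L2A) (x y : S.L2A) :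
    ‖⟪x, blockDiag P F y⟫_ℂ‖ ≤ ‖F‖ * ‖x‖ * ‖y‖ := by
  rw [blockDiag, sum_apply, inner_sum]
  refine (norm_sum_le _ _).trans ?_
  have h : ∀ i, ‖⟪x, (S.mul (P.p i) * F * S.mul (P.p i)) y⟫_ℂ‖ ≤
      ‖F‖ * (‖S.mul (P.p i) x‖ * ‖S.mul (P.p i) y‖) := fun i => by
    show ‖⟪x, S.mul (P.p i) (F (S.mul (P.p i) y))⟫_ℂ‖ ≤ _
    rw [← ContinuousLinearMap.adjoint_inner_left, ← ContinuousLinearMap.star_eq_adjoint, ← S.mul_star, P.star_p]
    exact (norm_inner_le_norm _ _).trans ((mul_le_mul_of_nonneg_left (F.le_opNorm _) (norm_nonneg _)).trans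
      (le_of_eq (by ring)))
  refine (Finset.sum_le_sum fun i _ => h i).trans ?_
  rw [← Finset.mul_sum, mul_assoc]
  refine mul_le_mul_of_nonneg_left ?_ (ContinuousLinearMap.opNorm_nonneg F)
  refine (Real.sum_mul_le_sqrt_mul_sqrt _ _ _).trans (le_of_eq ?_)
  rw [sum_norm_mul_sq, sum_norm_mul_sq, Real.sqrt_sq (norm_nonneg _), Real.sqrt_sq (norm_nonneg _)]

lemma inner_blockDiag (P : S.Parti) (F : S.L2A →L[ℂ] S.L2A) {u v : Op H} (hu : u ∈ S.A) (hv : v ∈ S.A) :
    ⟪S.av u, blockDiag P F (S.av v)⟫_ℂ = S.kdiag P (S.mul (star u) * F * S.mul v) := by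
  rw [blockDiag, sum_apply, inner_sum]
  refine Finset.sum_congr rfl fun i _ => ?_
  show ⟪S.av u, S.mul (P.p i) (F (S.mul (P.p i) (S.av v)))⟫_ℂ =
    ⟪S.av (P.p i), S.mul (star u) (F (S.mul v (S.av (P.p i))))⟫_ℂ
  rw [← ContinuousLinearMap.adjoint_inner_left (S.mul (P.p i)), ← ContinuousLinearMap.adjoint_inner_left (S.mul (star u)),
    ← ContinuousLinearMap.star_eq_adjoint, ← ContinuousLinearMap.star_eq_adjoint, ← S.mul_star, ← S.mul_star,
    P.star_p, star_star, S.mul_av (P.mem_A i) hu, S.mul_av (P.mem_A i) hv, S.mul_av hu (P.mem_A i),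
    S.mul_av hv (P.mem_A i), S.A_comm _ (P.mem_A i) u hu, S.A_comm _ (P.mem_A i) v hv]

/-- Every element of `alg` has a density on the MASA. -/
theorem exists_diag {F : S.L2A →L[ℂ] S.L2A} (hF : F ∈ S.alg) :
    ∃ d ∈ S.A, ‖d‖ ≤ ‖F‖ ∧ ∀ b ∈ S.A, S.ktr (S.mul b * F) = S.tau (b * d) := by
  -- the block diagonal parts converge weakly
  have hconv : ∀ x y : S.L2A, ∃ l, Tendsto (fun P => ⟪x, blockDiag P F y⟫_ℂ) S.fine (𝓝 l) := by
    intro x y
    refine cauchy_map_iff_exists_tendsto.1 (Metric.cauchy_iff.2 ⟨inferInstance, fun ε hε => ?_⟩)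
    set η := min 1 (ε / (8 * (‖F‖ * (‖x‖ + ‖y‖ + 1) + 1))) with hη
    have hC : (0 : ℝ) < ‖F‖ * (‖x‖ + ‖y‖ + 1) + 1 := by
      nlinarith [ContinuousLinearMap.opNorm_nonneg F, norm_nonneg x, norm_nonneg y]
    have hη0 : 0 < η := lt_min one_pos (by positivity)
    obtain ⟨_, ⟨u, hu, rfl⟩, hxu⟩ := Metric.mem_closure_iff.1 (S.dense_av x) η hη0
    obtain ⟨_, ⟨v, hv, rfl⟩, hyv⟩ := Metric.mem_closure_iff.1 (S.dense_av y) η hη0
    rw [dist_eq_norm] at hxu hyv
    have hlim := ktr_tendsto' (mul_mem (mul_mem (mul_mem_alg (star_mem hu)) hF) (mul_mem_alg hv))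
    refine ⟨_, image_mem_map (Metric.tendsto_nhds.1 hlim (ε / 4) (by positivity)), ?_⟩
    have hb : ∀ P, dist ⟪x, blockDiag P F y⟫_ℂ (S.kdiag P (S.mul (star u) * F * S.mul v)) ≤ ε / 8 := fun P => by
      rw [← inner_blockDiag P F hu hv, dist_eq_norm,
        show ⟪x, blockDiag P F y⟫_ℂ - ⟪S.av u, blockDiag P F (S.av v)⟫_ℂ =
          ⟪x - S.av u, blockDiag P F y⟫_ℂ + ⟪S.av u, blockDiag P F (y - S.av v)⟫_ℂ by
            simp [inner_sub_left, inner_sub_right, map_sub]]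
      refine (norm_add_le _ _).trans ((add_le_add (norm_inner_blockDiag_le P F _ _)
        (norm_inner_blockDiag_le P F _ _)).trans ?_)
      have hu' : ‖S.av u‖ ≤ ‖x‖ + 1 := by
        have := norm_le_norm_add_norm_sub' (S.av u) x
        rw [norm_sub_rev] at this
        linarith [min_le_left 1 (ε / (8 * (‖F‖ * (‖x‖ + ‖y‖ + 1) + 1))), hxu.le]
      have h8 : η * (8 * (‖F‖ * (‖x‖ + ‖y‖ + 1) + 1)) ≤ ε := by
        rw [← le_div_iff₀ (by positivity)]; exact min_le_right _ _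
      have hF0 := ContinuousLinearMap.opNorm_nonneg F
      nlinarith [mul_le_mul_of_nonneg_left (mul_le_mul_of_nonneg_right hxu.le (norm_nonneg y)) hF0,
        mul_le_mul_of_nonneg_left (mul_le_mul hu' hyv.le (norm_nonneg _) (by positivity)) hF0]
    rintro _ ⟨P, hP, rfl⟩ _ ⟨Q, hQ, rfl⟩
    have hP' : dist (S.kdiag P (S.mul (star u) * F * S.mul v)) _ < ε / 4 := hP
    have hQ' : dist (S.kdiag Q (S.mul (star u) * F * S.mul v)) _ < ε / 4 := hQ
    have h2 := dist_triangle_right (S.kdiag P (S.mul (star u) * F * S.mul v))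
      (S.kdiag Q (S.mul (star u) * F * S.mul v)) (S.ktr (S.mul (star u) * F * S.mul v))
    have h3 := dist_comm (S.kdiag Q (S.mul (star u) * F * S.mul v)) ⟪x, blockDiag Q F y⟫_ℂ
    linarith [dist_triangle4 ⟪x, blockDiag P F y⟫_ℂ (S.kdiag P (S.mul (star u) * F * S.mul v))
      (S.kdiag Q (S.mul (star u) * F * S.mul v)) ⟪x, blockDiag Q F y⟫_ℂ, hb P, hb Q]
  choose L hL using hconv
  let B : S.L2A →L⋆[ℂ] S.L2A →L[ℂ] ℂ := LinearMap.mkContinuous₂
    (LinearMap.mk₂'ₛₗ (starRingEnd ℂ) (RingHom.id ℂ) L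
      (fun x x' y => tendsto_nhds_unique (hL _ _) (by simpa only [inner_add_left] using (hL x y).add (hL x' y)))
      (fun c x y => tendsto_nhds_unique (hL _ _)
        (by simpa only [inner_smul_left, smul_eq_mul] using (hL x y).const_mul (starRingEnd ℂ c)))
      (fun x y y' => tendsto_nhds_unique (hL _ _)
        (by simpa only [map_add, inner_add_right] using (hL x y).add (hL x y')))
      (fun c x y => tendsto_nhds_unique (hL _ _)
        (by simpa only [map_smul, inner_smul_right, smul_eq_mul, RingHom.id_apply] using (hL x y).const_mul c)))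
    ‖F‖ fun x y => le_of_tendsto' (hL x y).norm fun P => norm_inner_blockDiag_le P F x y
  set D := ContinuousLinearMap.adjoint (InnerProductSpace.continuousLinearMapOfBilin B)
  have hD : ∀ x y, ⟪x, D y⟫_ℂ = L x y := fun x y => by
    rw [ContinuousLinearMap.adjoint_inner_right, InnerProductSpace.continuousLinearMapOfBilin_apply]
    rfl
  have hval : ∀ u ∈ S.A, ∀ v ∈ S.A, ⟪S.av u, D (S.av v)⟫_ℂ = S.ktr (S.mul (star u) * F * S.mul v) := by
    intro u hu v hv
    rw [hD]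
    refine tendsto_nhds_unique (hL _ _) ?_
    simp only [inner_blockDiag _ F hu hv]
    exact ktr_tendsto' (mul_mem (mul_mem (mul_mem_alg (star_mem hu)) hF) (mul_mem_alg hv))
  have hDn : ‖D‖ ≤ ‖F‖ := by
    refine ContinuousLinearMap.opNorm_le_bound D (ContinuousLinearMap.opNorm_nonneg F) fun y => ?_
    have h := le_of_tendsto' (hL (D y) y).norm fun P => norm_inner_blockDiag_le P F (D y) y
    rw [← hD, inner_self_eq_norm_sq_to_K, norm_pow, RCLike.norm_ofReal, abs_norm] at h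
    rcases (norm_nonneg (D y)).eq_or_lt with h0 | h0
    · rw [← h0]; exact mul_nonneg (ContinuousLinearMap.opNorm_nonneg F) (norm_nonneg _)
    · nlinarith
  have hcomm : ∀ c ∈ S.A, D * S.mul c = S.mul c * D := fun c hc => by
    refine S.op_ext fun v hv => ext_inner_left ℂ fun x => ?_
    refine S.dense_av.induction (P := fun x => ⟪x, (D * S.mul c) (S.av v)⟫_ℂ = ⟪x, (S.mul c * D) (S.av v)⟫_ℂ)
      ?_ (isClosed_eq (continuous_id.inner continuous_const) (continuous_id.inner continuous_const)) x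
    rintro _ ⟨u, hu, rfl⟩
    show ⟪S.av u, D (S.mul c (S.av v))⟫_ℂ = ⟪S.av u, S.mul c (D (S.av v))⟫_ℂ
    rw [S.mul_av hc hv, hval u hu _ (mul_mem hc hv), ← ContinuousLinearMap.adjoint_inner_left,
      ← ContinuousLinearMap.star_eq_adjoint, ← S.mul_star, S.mul_av (star_mem hc) hu,
      hval _ (mul_mem (star_mem hc) hu) v hv, star_mul, star_star, S.mul_mul (star_mem hu) hc,
      S.mul_mul hc hv]
    have hu' := mul_mem_alg (S := S) (star_mem hu)
    have hc' := mul_mem_alg (S := S) hc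
    have hv' := mul_mem_alg (S := S) hv
    calc S.ktr (S.mul (star u) * F * (S.mul c * S.mul v))
        = S.ktr (S.mul (star u) * F * (S.mul v * S.mul c)) := by rw [S.mul_comm_mul hc hv]
      _ = S.ktr (S.mul c * (S.mul (star u) * F * S.mul v)) := by
          rw [← mul_assoc, ktr_mul_comm (mul_mem (mul_mem hu' hF) hv') hc']
      _ = S.ktr (S.mul (star u) * S.mul c * F * S.mul v) := by
          rw [← mul_assoc, ← mul_assoc, S.mul_comm_mul hc (star_mem hu)]
  obtain ⟨d, hd, hdn, hDd⟩ := S.mul_of_commute hcomm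
  refine ⟨d, hd, hdn.trans_le hDn, fun b hb => ?_⟩
  have h := hval 1 (one_mem _) b hb
  rw [hDd, S.mul_av hd hb, S.inner_av (one_mem _) (mul_mem hd hb), star_one, one_mul, S.A_comm d hd b hb,
    S.mul_one, one_mul] at h
  rw [h, ktr_mul_comm hF (mul_mem_alg hb)]

/-- Densities are unique. -/
lemma diag_ext {d e : Op H} (hd : d ∈ S.A) (he : e ∈ S.A)
    (h : ∀ b ∈ S.A, S.tau (b * d) = S.tau (b * e)) : d = e := by
  refine S.eq_of_n2 (S.A_le hd) (S.A_le he) ?_
  have hde : star (d - e) ∈ S.A := star_mem (sub_mem hd he)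
  have h2 : S.n2 (d - e) ^ 2 = 0 := by
    rw [S.n2_sq, _root_.mul_sub, S.tau_sub, h _ hde, sub_self, Complex.zero_re]
  exact pow_eq_zero_iff two_ne_zero |>.1 h2

theorem kexp_mem (F : S.L2A →L[ℂ] S.L2A) : S.kexp F ∈ S.A := by
  rw [kexp]
  split
  · next h => exact h.choose_spec.1
  · exact zero_mem _

theorem kexp_eq {F : S.L2A →L[ℂ] S.L2A} {d : Op H} (hd : d ∈ S.A)
    (h : ∀ b ∈ S.A, S.ktr (S.mul b * F) = S.tau (b * d)) : S.kexp F = d := by
  have hx : ∃ d ∈ S.A, ∀ b ∈ S.A, S.ktr (S.mul b * F) = S.tau (b * d) := ⟨d, hd, h⟩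
  rw [kexp, dif_pos hx]
  exact diag_ext hx.choose_spec.1 hd fun b hb => (hx.choose_spec.2 b hb).symm.trans (h b hb)

theorem ktr_mul_kexp {F : S.L2A →L[ℂ] S.L2A} (hF : F ∈ S.alg) {b : Op H} (hb : b ∈ S.A) :
    S.ktr (S.mul b * F) = S.tau (b * S.kexp F) := by
  obtain ⟨d, hd, -, h⟩ := exists_diag hF
  rw [kexp_eq hd h, h b hb]

theorem norm_kexp_le {F : S.L2A →L[ℂ] S.L2A} (hF : F ∈ S.alg) : ‖S.kexp F‖ ≤ ‖F‖ := by
  obtain ⟨d, hd, hn, h⟩ := exists_diag hF
  rwa [kexp_eq hd h]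

theorem tau_kexp {F : S.L2A →L[ℂ] S.L2A} (hF : F ∈ S.alg) : S.tau (S.kexp F) = S.ktr F := by
  have h := ktr_mul_kexp hF (one_mem S.A)
  rwa [S.mul_one, one_mul, one_mul, eq_comm] at h

theorem kexp_add {F G : S.L2A →L[ℂ] S.L2A} (hF : F ∈ S.alg) (hG : G ∈ S.alg) :
    S.kexp (F + G) = S.kexp F + S.kexp G :=
  kexp_eq (add_mem (kexp_mem F) (kexp_mem G)) fun b hb => by
    rw [_root_.mul_add, ktr_add (mul_mem (mul_mem_alg hb) hF) (mul_mem (mul_mem_alg hb) hG), ktr_mul_kexp hF hb,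
      ktr_mul_kexp hG hb, ← S.tau_add, _root_.mul_add]

theorem kexp_sub {F G : S.L2A →L[ℂ] S.L2A} (hF : F ∈ S.alg) (hG : G ∈ S.alg) :
    S.kexp (F - G) = S.kexp F - S.kexp G :=
  kexp_eq (sub_mem (kexp_mem F) (kexp_mem G)) fun b hb => by
    rw [_root_.mul_sub, ktr_sub (mul_mem (mul_mem_alg hb) hF) (mul_mem (mul_mem_alg hb) hG), ktr_mul_kexp hF hb,
      ktr_mul_kexp hG hb, ← S.tau_sub, _root_.mul_sub]

theorem kexp_smul (c : ℂ) {F : S.L2A →L[ℂ] S.L2A} (hF : F ∈ S.alg) : S.kexp (c • F) = c • S.kexp F :=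
  kexp_eq (S.A.smul_mem (kexp_mem F) c) fun b hb => by
    rw [mul_smul_comm, ktr_smul c (mul_mem (mul_mem_alg hb) hF), ktr_mul_kexp hF hb, mul_smul_comm, S.tau_smul]

theorem kexp_zero : S.kexp (0 : S.L2A →L[ℂ] S.L2A) = 0 :=
  kexp_eq (zero_mem _) fun b _ => by
    rw [MulZeroClass.mul_zero, MulZeroClass.mul_zero, S.tau_zero]
    exact ktr_eq (by simpa [kdiag] using tendsto_const_nhds)

theorem kexp_mul {a : Op H} (ha : a ∈ S.A) : S.kexp (S.mul a) = a :=
  kexp_eq ha fun b hb => by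
    rw [← S.mul_mul hb ha, ← _root_.mul_one (S.mul (b * a))]
    have h := ktr_mul_T (S := S) (mul_mem hb ha) (one_mem S.M) (one_mem S.M)
    rw [← mul_eq_T (one_mem S.A), S.mul_one, S.exp_one, star_one, _root_.mul_one, _root_.mul_one] at h
    exact h

theorem kexp_one : S.kexp (1 : S.L2A →L[ℂ] S.L2A) = 1 := by
  rw [← S.mul_one]; exact kexp_mul (one_mem _)

/-- `ktr` of a multiplier is the trace. -/
theorem ktr_mul {a : Op H} (ha : a ∈ S.A) : S.ktr (S.mul a) = S.tau a := by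
  rw [← tau_kexp (mul_mem_alg ha), kexp_mul ha]

theorem kexp_bimod {a b : Op H} (ha : a ∈ S.A) (hb : b ∈ S.A) {F : S.L2A →L[ℂ] S.L2A} (hF : F ∈ S.alg) :
    S.kexp (S.mul a * F * S.mul b) = a * S.kexp F * b :=
  kexp_eq (mul_mem (mul_mem ha (kexp_mem F)) hb) fun c hc => by
    rw [← mul_assoc, ktr_mul_comm (mul_mem (mul_mem_alg hc) (mul_mem (mul_mem_alg ha) hF)) (mul_mem_alg hb),
      ← mul_assoc, ← mul_assoc, ← S.mul_mul hb hc, ← S.mul_mul (mul_mem hb hc) ha,
      ktr_mul_kexp hF (mul_mem (mul_mem hb hc) ha), ← mul_assoc c, ← mul_assoc c a,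
      S.tau_comm (S.A_le (mul_mem (mul_mem hc ha) (kexp_mem F))) (S.A_le hb)]
    simp only [mul_assoc]

theorem kexp_star {F : S.L2A →L[ℂ] S.L2A} (hF : F ∈ S.alg) : S.kexp (star F) = star (S.kexp F) :=
  kexp_eq (star_mem (kexp_mem F)) fun b hb => by
    have hb' := mul_mem_alg (S := S) hb
    rw [ktr_mul_comm hb' (star_mem hF), show S.mul b = star (S.mul (star b)) by rw [← S.mul_star, star_star],
      show star F * star (S.mul (star b)) = star (S.mul (star b) * F) from (star_mul (S.mul (star b)) F).symm,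
      ktr_star (mul_mem (mul_mem_alg (star_mem hb)) hF), ktr_mul_kexp hF (star_mem hb), ← S.tau_star, star_mul,
      star_star, S.A_comm _ (star_mem (kexp_mem F)) b hb]

theorem kexp_nonneg {F : S.L2A →L[ℂ] S.L2A} (hF : F ∈ S.alg) (h : 0 ≤ F) : 0 ≤ S.kexp F := by
  set d := S.kexp F
  have hd : d ∈ S.A := kexp_mem F
  have hsa : star d = d := by
    show star (S.kexp F) = S.kexp F
    rw [← kexp_star hF, h.isSelfAdjoint.star_eq]
  have hpos : ∀ b ∈ S.A, 0 ≤ b → 0 ≤ S.tau (b * d) := fun b hb hb0 => by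
    set r := CFC.sqrt b
    have hr : r ∈ S.A := S.sqrt_mem_A hb
    have hrs : star r = r := (CFC.sqrt_nonneg b).isSelfAdjoint
    rw [← ktr_mul_kexp hF hb, ← CFC.sqrt_mul_sqrt_self b, S.mul_mul hr hr, mul_assoc,
      ktr_mul_comm (mul_mem_alg hr) (mul_mem (mul_mem_alg hr) hF)]
    refine ktr_nonneg (mul_mem (mul_mem (mul_mem_alg hr) hF) (mul_mem_alg hr)) ?_
    have := star_left_conjugate_nonneg h (S.mul r)
    rwa [← S.mul_star, hrs] at this
  rw [ContinuousLinearMap.nonneg_iff_isPositive, ContinuousLinearMap.isPositive_def']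
  refine ⟨hsa, fun w => ?_⟩
  refine S.cyclic.induction (P := fun w => 0 ≤ ContinuousLinearMap.reApplyInnerSelf d w) ?_
    (isClosed_le continuous_const (ContinuousLinearMap.reApplyInnerSelf_continuous d)) w
  rintro _ ⟨x, hx, rfl⟩
  have hxx : x * star x ∈ S.M := mul_mem hx (star_mem hx)
  have h1 : ⟪d (x S.Ω), x S.Ω⟫_ℂ = S.tau (S.exp (x * star x) * d) := by
    rw [show ⟪d (x S.Ω), x S.Ω⟫_ℂ = S.tau (star (d * x) * x) from S.inner_orbit (d * x) x, star_mul, hsa,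
      S.A_comm _ (S.exp_mem _) d hd, S.tau_mul_exp hd hxx, mul_assoc (star x) d x,
      S.tau_comm (star_mem hx) (mul_mem (S.A_le hd) hx), mul_assoc]
  rw [ContinuousLinearMap.reApplyInnerSelf_apply, h1]
  exact (Complex.le_def.1 (hpos _ (S.exp_mem _) (S.exp_nonneg hxx (mul_star_self_nonneg x)))).1

end Std

end Vale.Agent.P078
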